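import Vale.Agent.P359.Rep.Coup
import Vale.Agent.P359.Pairs.Spin

/-!
# P359: the rows `beta` give Haldane's projection
-/

noncomputable section

namespace P359

open Finset Matrix Vale.Agent.P359.Pairs

variable {Q : ℕ}

/-- The factor between `beta` and `amp`. -/
def gam (Q M : ℕ) : ℝ := 1 / ((Q : ℝ) * Real.sqrt (((Q + Q - 2 * 1).choose M : ℝ) * coupN Q Q 1))

theorem coupRaw_one {a b : ℕ} (ha : a ≤ Q) (hb : b ≤ Q) (hQ : 1 ≤ Q) :
    (Q : ℝ) * coupRaw Q Q 1 a b =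
      (Q.choose a : ℝ) * (Q.choose b : ℝ) * ((b : ℝ) - (a : ℝ)) := by
  obtain ⟨m, rfl⟩ : ∃ m, Q = m + 1 := ⟨Q - 1, by omega⟩
  have hA : ∀ c, c ≤ m + 1 → ((m : ℝ) + 1) * (m.choose c : ℝ) =
      ((m + 1).choose c : ℝ) * ((m : ℝ) + 1 - c) := fun c hc => by
    have := congrArg (Nat.cast (R := ℝ)) (Nat.choose_mul_succ_eq m c)
    push_cast [Nat.cast_sub hc] at this
    linarith
  have hB : ∀ c, 1 ≤ c → ((m : ℝ) + 1) * (m.choose (c - 1) : ℝ) =
      ((m + 1).choose c : ℝ) * (c : ℝ) := fun c hc => by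
    obtain ⟨e, rfl⟩ : ∃ e, c = e + 1 := ⟨c - 1, by omega⟩
    have := congrArg (Nat.cast (R := ℝ)) (Nat.add_one_mul_choose_eq m e)
    push_cast at this ⊢
    simpa using this
  have t0 : ((m : ℝ) + 1) * ((m : ℝ) + 1) *
      (if 0 ≤ a ∧ 1 ≤ b + 0 then
        (-1 : ℝ) ^ 0 * (Nat.choose 1 0 : ℝ) * ((m + 1 - 1).choose (a - 0) : ℝ)
          * ((m + 1 - 1).choose (b + 0 - 1) : ℝ) else 0) =
      ((m + 1).choose a : ℝ) * ((m : ℝ) + 1 - a) * (((m + 1).choose b : ℝ) * b) := by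
    by_cases h : 1 ≤ b
    · rw [if_pos ⟨Nat.zero_le a, h⟩, ← hA a ha, ← hB b h]
      simp only [Nat.add_sub_cancel, Nat.add_zero, Nat.sub_zero, pow_zero, Nat.choose_zero_right,
        Nat.cast_one]
      ring
    · rw [if_neg fun h' => h h'.2, show b = 0 by omega]
      simp
  have t1 : ((m : ℝ) + 1) * ((m : ℝ) + 1) *
      (if 1 ≤ a ∧ 1 ≤ b + 1 then
        (-1 : ℝ) ^ 1 * (Nat.choose 1 1 : ℝ) * ((m + 1 - 1).choose (a - 1) : ℝ)
          * ((m + 1 - 1).choose (b + 1 - 1) : ℝ) else 0) =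
      -(((m + 1).choose a : ℝ) * a * (((m + 1).choose b : ℝ) * ((m : ℝ) + 1 - b))) := by
    by_cases h : 1 ≤ a
    · rw [if_pos ⟨h, Nat.le_add_left 1 b⟩, ← hA b hb, ← hB a h]
      simp only [Nat.add_sub_cancel, pow_one, Nat.choose_self, Nat.cast_one]
      ring
    · rw [if_neg fun h' => h h'.1, show a = 0 by omega]
      simp
  refine mul_left_cancel₀ (show ((m + 1 : ℕ) : ℝ) ≠ 0 by positivity) ?_
  rw [coupRaw, sum_range_succ, sum_range_succ, sum_range_zero, zero_add, Nat.cast_add,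
    Nat.cast_one (R := ℝ)]
  linear_combination t0 + t1

theorem beta_eq_amp {M : ℕ} (hQ : 1 ≤ Q) (x : Fin (Q + 1) × Fin (Q + 1)) :
    beta Q M (x.1 : ℕ) (x.2 : ℕ) = if wsum x = M + 1 then gam Q M * amp x else 0 := by
  by_cases h : wsum x = M + 1
  swap
  · rw [if_neg h, beta, coup, if_neg fun h' => h h'.2.2]
  rw [if_pos h, beta, coup, if_pos ⟨hQ, hQ, h⟩, gam, amp]
  have hr := coupRaw_one x.1.is_le x.2.is_le hQ
  have hQ0 : (Q : ℝ) ≠ 0 := Nat.cast_ne_zero.2 (by omega)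
  set C := ((Q + Q - 2 * 1).choose M : ℝ) * coupN Q Q 1
  set D := (Q.choose (x.1 : ℕ) : ℝ) * (Q.choose (x.2 : ℕ) : ℝ)
  have hD : 0 ≤ D := by positivity
  rw [show ((Q + Q - 2 * 1).choose M : ℝ) * (Q.choose (x.1 : ℕ) : ℝ) * (Q.choose (x.2 : ℕ) : ℝ) *
    coupN Q Q 1 = D * C by ring, Real.sqrt_mul hD]
  rw [show coupRaw Q Q 1 (x.1 : ℕ) (x.2 : ℕ) =
    (((x.2 : ℕ) : ℝ) - ((x.1 : ℕ) : ℝ)) / (Q : ℝ) * D by
      field_simp; linear_combination hr]
  calc (((x.2 : ℕ) : ℝ) - ((x.1 : ℕ) : ℝ)) / (Q : ℝ) * D / (Real.sqrt D * Real.sqrt C)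
      = (((x.2 : ℕ) : ℝ) - ((x.1 : ℕ) : ℝ)) / (Q : ℝ) / Real.sqrt C * (D / Real.sqrt D) := by ring
    _ = _ := by rw [Real.div_sqrt]; ring

theorem gam_norm {M : ℕ} (hM : M < 2 * Q - 1) : gam Q M ^ 2 * spinNorm Q (M + 1) = 1 := by
  have hQ : 1 ≤ Q := by omega
  have h := coup_orth (L' := 1) (J := M) (J' := M) hQ hQ
  rw [if_pos ⟨rfl, rfl, by omega⟩, sum_range] at h
  simp only [sum_range] at h
  rw [← h, spinNorm, Finset.mul_sum, Fintype.sum_prod_type]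
  refine sum_congr rfl fun a _ => sum_congr rfl fun b _ => ?_
  rw [show coup Q Q 1 M (a : ℕ) (b : ℕ) = if wsum (a, b) = M + 1 then gam Q M * amp (a, b) else 0
    from beta_eq_amp hQ (a, b)]
  split_ifs <;> ring

/-- `P⁽¹⁾ = ∑ beta_M beta_Mᵀ`. -/
theorem spinProj_eq (x y : Fin (Q + 1) × Fin (Q + 1)) :
    spinProj Q x y = ∑ M ∈ range (2 * Q - 1),
      ((beta Q M (x.1 : ℕ) (x.2 : ℕ) * beta Q M (y.1 : ℕ) (y.2 : ℕ) : ℝ) : ℂ) := by
  rw [← Complex.ofReal_sum, spinProj, Matrix.of_apply, ← Complex.ofReal_zero,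
    ← apply_ite Complex.ofReal]
  congr 1
  by_cases hS : 1 ≤ wsum x ∧ wsum x ≤ 2 * Q - 1
  · obtain ⟨h1, h2⟩ := hS
    have hQ : 1 ≤ Q := by omega
    rw [sum_eq_single (wsum x - 1)]
    · rw [beta_eq_amp hQ, beta_eq_amp hQ, Nat.sub_add_cancel h1,
        if_pos (rfl : wsum x = wsum x)]
      have hn := gam_norm (Q := Q) (M := wsum x - 1) (by omega)
      rw [Nat.sub_add_cancel h1] at hn
      have hne : spinNorm Q (wsum x) ≠ 0 := fun h0 => by simp [h0] at hn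
      by_cases e : wsum x = wsum y
      · rw [if_pos e, if_pos e.symm]
        field_simp
        linear_combination -(amp x * amp y) * hn
      · rw [if_neg e, if_neg (Ne.symm e), mul_zero]
    · intro M _ hne
      rw [beta_eq_amp hQ, if_neg (by omega), zero_mul]
    · intro h
      exact absurd (mem_range.2 (by omega)) h
  · have h0 : amp x = 0 := by
      have h1 := x.1.is_le
      have h2 := x.2.is_le
      have : (x.1 : ℕ) = (x.2 : ℕ) := by simp only [wsum] at hS; omega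
      simp [amp, this]
    rw [h0]
    refine (by simp : (if wsum x = wsum y then (0 : ℝ) * amp y / spinNorm Q (wsum x) else 0) = 0)
      |>.trans (sum_eq_zero fun M hM => ?_).symm
    have := mem_range.1 hM
    rw [beta_eq_amp (by omega), h0]
    simp

end P359
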