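import Vale.Agent.P359.Defs
import Vale.Agent.P359.Pairs.Gap

/-!
# P359: wave functions as states of the anticommutation relations

`amb v = ∑ v x d_(x 0) ... d_(x (N-1)) Ω` for a vacuum `Ω`.
-/

noncomputable section

namespace P359

open Finset Matrix Vale.Agent.P359.Pairs

variable {Q : ℕ} {V : Type*} [NormedAddCommGroup V] [InnerProductSpace ℂ V] {A : CAR Q V} {Ω : V}

/-- A vacuum of a family of anticommutation relations. -/
structure IsVac (A : CAR Q V) (Ω : V) : Prop where
  ann : ∀ i, i ≤ Q → A.c i Ω = 0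
  norm : inner ℂ Ω Ω = (1 : ℂ)

theorem CAR.adj' (A : CAR Q V) {i : ℕ} (hi : i ≤ Q) (x y : V) :
    inner ℂ x (A.d i y) = inner ℂ (A.c i x) y := (A.adj i hi x y).symm

theorem CAR.d_anti (A : CAR Q V) {i j : ℕ} (hi : i ≤ Q) (hj : j ≤ Q) (x : V) :
    A.d i (A.d j x) = - A.d j (A.d i x) := by
  refine eq_neg_of_add_eq_zero_left (ext_inner_left ℂ fun y => ?_)
  rw [inner_zero_right, inner_add_right, A.adj' hi, A.adj' hj, A.adj' hj, A.adj' hi,
    ← inner_add_left, A.anti j hj i hi, inner_zero_left]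

/-- A product of creators on the vacuum. -/
def mon (A : CAR Q V) (Ω : V) : {n : ℕ} → (Fin n → Fin (Q + 1)) → V
  | 0, _ => Ω
  | _ + 1, x => A.d (x 0 : ℕ) (mon A Ω (Fin.tail x))

/-- The state of a wave function. -/
def amb (A : CAR Q V) (Ω : V) {n : ℕ} (v : (Fin n → Fin (Q + 1)) → ℂ) : V :=
  ∑ x, v x • mon A Ω x

/-- Fix the first particle. -/
def slice {n : ℕ} {α β : Type*} (v : (Fin (n + 1) → α) → β) (a : α) : (Fin n → α) → β :=
  fun y => v (Fin.cons a y)

variable {n : ℕ}

theorem sum_cons {α M : Type*} [Fintype α] [AddCommMonoid M] (F : (Fin (n + 1) → α) → M) :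
    ∑ x, F x = ∑ a : α, ∑ y : Fin n → α, F (Fin.cons a y) := by
  rw [← (Fin.consEquiv fun _ : Fin (n + 1) => α).sum_comp, Fintype.sum_prod_type]
  rfl

theorem dot_slice {α : Type*} [Fintype α] (v w : (Fin (n + 1) → α) → ℂ) :
    star v ⬝ᵥ w = ∑ a : α, star (slice v a) ⬝ᵥ slice w a :=
  sum_cons fun x => star (v x) * w x

theorem amb_succ (v : (Fin (n + 1) → Fin (Q + 1)) → ℂ) :
    amb A Ω v = ∑ a : Fin (Q + 1), A.d (a : ℕ) (amb A Ω (slice v a)) := by
  rw [amb, sum_cons]
  refine sum_congr rfl fun a _ => ?_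
  rw [amb, map_sum]
  refine sum_congr rfl fun y _ => ?_
  rw [map_smul, mon, Fin.cons_zero, Fin.tail_cons]
  rfl

theorem amb_zero (v : (Fin 0 → Fin (Q + 1)) → ℂ) : amb A Ω v = v Fin.elim0 • Ω := by
  rw [amb, Fintype.sum_subsingleton _ Fin.elim0]
  rfl

theorem amb_add (v w : (Fin n → Fin (Q + 1)) → ℂ) :
    amb A Ω (v + w) = amb A Ω v + amb A Ω w := by
  simp [amb, add_smul, sum_add_distrib]

theorem amb_smul (a : ℂ) (v : (Fin n → Fin (Q + 1)) → ℂ) :
    amb A Ω (a • v) = a • amb A Ω v := by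
  simp [amb, smul_smul, Finset.smul_sum]

theorem amb_sum {κ : Type*} (s : Finset κ) (f : κ → (Fin n → Fin (Q + 1)) → ℂ) :
    amb A Ω (∑ p ∈ s, f p) = ∑ p ∈ s, amb A Ω (f p) := by
  simp only [amb, Finset.sum_apply, Finset.sum_smul]
  exact sum_comm

theorem antisym_slice {ι : Type*} {v : (Fin (n + 1) → ι) → ℂ} (hv : IsAntisym v) (a : ι) :
    IsAntisym (slice v a) := by
  intro σ y
  have e : (Fin.cons a y : Fin (n + 1) → ι) ∘ Equiv.Perm.decomposeFin.symm (0, σ) =
      Fin.cons a (y ∘ σ) := by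
    funext k
    cases k using Fin.cases <;> simp
  simp only [slice]
  rw [← e, hv]
  simp [Equiv.Perm.decomposeFin.symm_sign]

theorem antisym_swap_two {ι : Type*} {v : (Fin (n + 2) → ι) → ℂ} (hv : IsAntisym v) (a b : ι) :
    slice (slice v a) b = - slice (slice v b) a := by
  funext z
  have e : (Fin.cons a (Fin.cons b z) : Fin (n + 2) → ι) ∘ Equiv.swap (0 : Fin (n + 2)) 1 =
      Fin.cons b (Fin.cons a z) := by
    funext k
    cases k using Fin.cases with
    | zero => simp
    | succ k =>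
      cases k using Fin.cases with
      | zero => simp
      | succ k =>
        simp [Equiv.swap_apply_of_ne_of_ne (Fin.succ_ne_zero k.succ)
          (show k.succ.succ ≠ 1 from fun h => Fin.succ_ne_zero k (Fin.succ_injective _ h))]
  have := hv (Equiv.swap (0 : Fin (n + 2)) 1) (Fin.cons a (Fin.cons b z))
  rw [e, Equiv.Perm.sign_swap (show (0 : Fin (n + 2)) ≠ 1 by simp)] at this
  simp [slice, this]

/-- Annihilation fixes one particle. -/
theorem c_amb (hΩ : IsVac A Ω) :
    ∀ {n : ℕ} {v : (Fin (n + 1) → Fin (Q + 1)) → ℂ}, IsAntisym v → ∀ i : Fin (Q + 1),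
      A.c (i : ℕ) (amb A Ω v) = ((n + 1 : ℕ) : ℂ) • amb A Ω (slice v i) := by
  intro n
  induction n with
  | zero =>
    intro v hv i
    rw [amb_succ, map_sum]
    have h : ∀ a : Fin (Q + 1), A.c (i : ℕ) (A.d (a : ℕ) (amb A Ω (slice v a))) =
        if i = a then amb A Ω (slice v a) else 0 := by
      intro a
      have := A.mixed i i.is_le a a.is_le (amb A Ω (slice v a))
      rw [amb_zero, map_smul (A.c (i : ℕ)) _ Ω, hΩ.ann i i.is_le, smul_zero, map_zero, add_zero]
        at this
      simp only [amb_zero, this, Fin.ext_iff]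
    simp [h]
  | succ n ih =>
    intro v hv i
    rw [amb_succ, map_sum]
    have h : ∀ a : Fin (Q + 1), A.c (i : ℕ) (A.d (a : ℕ) (amb A Ω (slice v a))) =
        (if i = a then amb A Ω (slice v a) else 0) +
          ((n + 1 : ℕ) : ℂ) • A.d (a : ℕ) (amb A Ω (slice (slice v i) a)) := by
      intro a
      have := A.mixed i i.is_le a a.is_le (amb A Ω (slice v a))
      rw [ih (antisym_slice hv a), antisym_swap_two hv a i, ← neg_one_smul ℂ (slice (slice v i) a),
        amb_smul, neg_one_smul, smul_neg, map_neg, map_smul, ← sub_eq_add_neg, sub_eq_iff_eq_add]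
        at this
      simpa only [Fin.ext_iff] using this
    rw [sum_congr rfl fun a _ => h a, sum_add_distrib, ← Finset.smul_sum, ← amb_succ]
    simp only [sum_ite_eq, mem_univ, if_true]
    push_cast
    module

/-- Scalar products of states. -/
theorem inner_amb (hΩ : IsVac A Ω) :
    ∀ {n : ℕ} {v : (Fin n → Fin (Q + 1)) → ℂ}, IsAntisym v → ∀ w,
      inner ℂ (amb A Ω v) (amb A Ω w) = (n.factorial : ℂ) * (star v ⬝ᵥ w) := by
  intro n
  induction n with
  | zero =>
    intro v _ w
    rw [amb_zero, amb_zero, inner_smul_left, inner_smul_right, hΩ.norm, dotProduct,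
      Fintype.sum_subsingleton _ Fin.elim0]
    simp
  | succ n ih =>
    intro v hv w
    rw [amb_succ w, inner_sum, dot_slice, Finset.mul_sum]
    refine sum_congr rfl fun a _ => ?_
    rw [A.adj' a.is_le, c_amb hΩ hv, inner_smul_left, ih (antisym_slice hv a), Complex.conj_natCast,
      Nat.factorial_succ]
    push_cast
    ring

theorem mon_swap : ∀ {n : ℕ} (x : Fin (n + 1) → Fin (Q + 1)) (i : Fin n),
    mon A Ω (x ∘ Equiv.swap i.castSucc i.succ) = - mon A Ω x
  | 0, _, i => i.elim0
  | m + 1, x, i => by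
    cases i using Fin.cases with
    | zero =>
      have e : Fin.tail (Fin.tail (x ∘ Equiv.swap (0 : Fin (m + 2)) 1)) =
          Fin.tail (Fin.tail x) := by
        funext k
        simp [Fin.tail, Equiv.swap_apply_of_ne_of_ne (Fin.succ_ne_zero k.succ)
          (show k.succ.succ ≠ 1 from fun h => Fin.succ_ne_zero k (Fin.succ_injective _ h))]
      simp only [Fin.castSucc_zero, Fin.succ_zero_eq_one]
      simp only [mon, e]
      simp only [Fin.tail, Function.comp_apply, Fin.succ_zero_eq_one, Equiv.swap_apply_left,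
        Equiv.swap_apply_right]
      exact A.d_anti (x 1).is_le (x 0).is_le _
    | succ k =>
      have e : Fin.tail (x ∘ Equiv.swap k.succ.castSucc k.succ.succ) =
          Fin.tail x ∘ Equiv.swap k.castSucc k.succ := by
        funext j
        simp only [Fin.tail, Function.comp_apply, Fin.castSucc_succ]
        rw [(Fin.succ_injective _).swap_apply]
      have e0 : (x ∘ Equiv.swap k.succ.castSucc k.succ.succ) 0 = x 0 := by
        rw [Function.comp_apply, Equiv.swap_apply_of_ne_of_ne]
        · rw [Fin.castSucc_succ]; exact (Fin.succ_ne_zero _).symm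
        · exact (Fin.succ_ne_zero _).symm
      rw [mon, e, e0, mon_swap (Fin.tail x) k, map_neg]
      rfl

theorem mon_perm (σ : Equiv.Perm (Fin n)) (x : Fin n → Fin (Q + 1)) :
    mon A Ω (x ∘ σ) = ((Equiv.Perm.sign σ : ℤ) : ℂ) • mon A Ω x := by
  cases n with
  | zero => simp [Subsingleton.elim σ 1]
  | succ m =>
    have hσ : σ ∈ Submonoid.closure
        (Set.range fun i : Fin m => Equiv.swap i.castSucc i.succ) := by
      rw [Equiv.Perm.mclosure_swap_castSucc_succ]; trivial
    induction hσ using Submonoid.closure_induction generalizing x with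
    | mem τ hτ =>
      obtain ⟨i, rfl⟩ := hτ
      rw [mon_swap, Equiv.Perm.sign_swap Fin.castSucc_lt_succ.ne]
      simp
    | one => simp
    | mul τ τ' _ _ h h' =>
      rw [Equiv.Perm.coe_mul, ← Function.comp_assoc, h', h, smul_smul, map_mul]
      push_cast
      rw [mul_comm]

theorem amb_relabel (σ : Equiv.Perm (Fin n)) (w : (Fin n → Fin (Q + 1)) → ℂ) :
    amb A Ω (fun x => w (x ∘ σ)) = ((Equiv.Perm.sign σ : ℤ) : ℂ) • amb A Ω w := by
  rw [amb, amb, ← (relabel σ⁻¹).sum_comp, Finset.smul_sum]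
  refine sum_congr rfl fun y _ => ?_
  rw [relabel_apply, mon_perm, Function.comp_assoc, ← Equiv.Perm.coe_mul]
  simp [smul_comm (w y)]

/-- On fermionic wave functions all pairs give the same state. -/
theorem amb_pair (P : Matrix (Fin (Q + 1) × Fin (Q + 1)) (Fin (Q + 1) × Fin (Q + 1)) ℂ)
    {v : (Fin n → Fin (Q + 1)) → ℂ} (hv : IsAntisym v) {a b i j : Fin n} (hab : a ≠ b)
    (hij : i ≠ j) :
    amb A Ω (pairMat P a b *ᵥ v) = amb A Ω (pairMat P i j *ᵥ v) := by
  have hinj : ∀ {p q : Fin n}, p ≠ q → Function.Injective ![p, q] := by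
    intro p q h x y hxy; fin_cases x <;> fin_cases y <;> simp_all
  obtain ⟨σ, hσ⟩ := exists_perm_comp (hinj hij) (hinj hab)
  have h0 : σ i = a := hσ 0
  have h1 : σ j = b := hσ 1
  rcases Int.units_eq_one_or (Equiv.Perm.sign σ) with hs | hs
  all_goals
    have e : pairMat P a b *ᵥ v = ((Equiv.Perm.sign σ : ℤ) : ℂ) •
        fun x => (pairMat P i j *ᵥ v) (x ∘ σ) := by
      funext x
      simp only [mulVec, dotProduct, Pi.smul_apply, smul_eq_mul, Finset.mul_sum]
      conv_rhs => rw [← (relabel σ).sum_comp]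
      refine sum_congr rfl fun y _ => ?_
      rw [← h0, ← h1, pairMat_perm, relabel_apply, hv σ y, hs]
      simp
    rw [e, amb_smul, amb_relabel, smul_smul, hs]
    simp

end P359
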