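import Vale.Agent.P359.Defs

/-!
# P359: a model of the anticommutation relations

The basis vectors are indexed by the sets of occupied orbitals; the signs are those of Jordan and
Wigner.
-/

noncomputable section

namespace P359

open Finset ComplexConjugate

/-- The Fock space of `Q + 1` orbitals. -/
abbrev Fock (Q : ℕ) := EuclideanSpace ℂ (Finset (Fin (Q + 1)))

namespace Fock

variable {Q : ℕ}

/-- The Jordan-Wigner sign. -/
def sgn (i : Fin (Q + 1)) (S : Finset (Fin (Q + 1))) : ℂ := (-1) ^ #{j ∈ S | j < i}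

theorem sgn_mul_self (i : Fin (Q + 1)) (S : Finset (Fin (Q + 1))) : sgn i S * sgn i S = 1 := by
  rw [sgn, ← pow_add, Even.neg_one_pow ⟨_, rfl⟩]

theorem conj_sgn (i : Fin (Q + 1)) (S : Finset (Fin (Q + 1))) : conj (sgn i S) = sgn i S := by
  simp [sgn]

theorem sgn_insert_self (i : Fin (Q + 1)) (S : Finset (Fin (Q + 1))) :
    sgn i (insert i S) = sgn i S := by
  rw [sgn, sgn, filter_insert, if_neg (lt_irrefl i)]

theorem sgn_insert {i j : Fin (Q + 1)} {S : Finset (Fin (Q + 1))} (h : j ∉ S) :
    sgn i (insert j S) = (if j < i then -1 else 1) * sgn i S := by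
  rw [sgn, sgn, filter_insert]
  by_cases hj : j < i
  · rw [if_pos hj, if_pos hj, card_insert_of_notMem (by simp [h]), pow_succ']
  · rw [if_neg hj, if_neg hj, one_mul]

/-- Annihilation. -/
def ann (i : Fin (Q + 1)) : Fock Q →ₗ[ℂ] Fock Q where
  toFun f := WithLp.toLp 2 fun S => if i ∈ S then 0 else sgn i S * f (insert i S)
  map_add' f g := by ext S; by_cases h : i ∈ S <;> simp [h, mul_add]
  map_smul' a f := by ext S; by_cases h : i ∈ S <;> simp [h, mul_left_comm]

/-- Creation. -/
def cre (i : Fin (Q + 1)) : Fock Q →ₗ[ℂ] Fock Q where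
  toFun f := WithLp.toLp 2 fun S => if i ∈ S then sgn i S * f (S.erase i) else 0
  map_add' f g := by ext S; by_cases h : i ∈ S <;> simp [h, mul_add]
  map_smul' a f := by ext S; by_cases h : i ∈ S <;> simp [h, mul_left_comm]

theorem ann_apply (i : Fin (Q + 1)) (f : Fock Q) (S : Finset (Fin (Q + 1))) :
    ann i f S = if i ∈ S then 0 else sgn i S * f (insert i S) := rfl

theorem cre_apply (i : Fin (Q + 1)) (f : Fock Q) (S : Finset (Fin (Q + 1))) :
    cre i f S = if i ∈ S then sgn i S * f (S.erase i) else 0 := rfl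

theorem adjoint (i : Fin (Q + 1)) (x y : Fock Q) :
    inner ℂ (ann i x) y = inner ℂ x (cre i y) := by
  simp only [PiLp.inner_apply, RCLike.inner_apply, ann_apply, cre_apply, apply_ite conj, map_zero,
    mul_ite, ite_mul, zero_mul, mul_zero]
  rw [sum_ite, sum_ite, sum_const_zero, sum_const_zero, zero_add, add_zero]
  refine sum_nbij' (fun S => insert i S) (fun S => S.erase i) ?_ ?_ ?_ ?_ ?_
  · intro S _; simp
  · intro S _; simp
  · intro S hS; exact erase_insert (mem_filter.1 hS).2
  · intro S hS; exact insert_erase (mem_filter.1 hS).2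
  · intro S hS
    rw [erase_insert (mem_filter.1 hS).2, sgn_insert_self, map_mul, conj_sgn]
    ring

theorem ann_ann (i j : Fin (Q + 1)) (f : Fock Q) : ann i (ann j f) + ann j (ann i f) = 0 := by
  ext S
  simp only [PiLp.add_apply, PiLp.zero_apply, ann_apply]
  by_cases hij : i = j
  · subst hij; simp
  by_cases hi : i ∈ S
  · simp [hi]
  by_cases hj : j ∈ S
  · simp [hj]
  simp only [hi, hj, mem_insert, hij, Ne.symm hij, or_self, if_false, sgn_insert hi, sgn_insert hj,
    Finset.insert_comm j i]
  rcases lt_or_gt_of_ne hij with h | h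
  · simp only [if_pos h, if_neg h.not_gt]; ring
  · simp only [if_pos h, if_neg h.not_gt]; ring

theorem ann_cre (i j : Fin (Q + 1)) (f : Fock Q) :
    ann i (cre j f) + cre j (ann i f) = if i = j then f else 0 := by
  ext S
  by_cases hij : i = j
  · subst hij
    simp only [PiLp.add_apply, ann_apply, cre_apply, if_true]
    by_cases hi : i ∈ S
    · obtain ⟨T, hT, rfl⟩ : ∃ T, i ∉ T ∧ S = insert i T :=
        ⟨S.erase i, by simp, (insert_erase hi).symm⟩
      rw [if_pos hi, if_pos hi, erase_insert hT, if_neg hT, sgn_insert_self, zero_add, ← mul_assoc,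
        sgn_mul_self, one_mul]
    · rw [if_neg hi, if_neg hi, if_pos (mem_insert_self i S), erase_insert hi, sgn_insert_self,
        add_zero, ← mul_assoc, sgn_mul_self, one_mul]
  simp only [PiLp.add_apply, if_neg hij, PiLp.zero_apply, ann_apply, cre_apply]
  by_cases hi : i ∈ S
  · simp [hi, hij]
  by_cases hj : j ∈ S
  swap
  · simp [hi, hj, Ne.symm hij]
  obtain ⟨T, hT, rfl⟩ : ∃ T, j ∉ T ∧ S = insert j T :=
    ⟨S.erase j, by simp, (insert_erase hj).symm⟩
  simp only [mem_insert, not_or] at hi
  simp only [mem_insert, hi.1, hi.2, or_self, if_false, true_or, if_true, erase_insert hT,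
    Finset.insert_comm i j, erase_insert (show j ∉ insert i T by simp [hT, Ne.symm hij]),
    sgn_insert (show j ∉ insert i T by simp [hT, Ne.symm hij]), sgn_insert hT,
    sgn_insert hi.2]
  rcases lt_or_gt_of_ne hij with h | h
  · simp only [if_pos h, if_neg h.not_gt]; ring
  · simp only [if_pos h, if_neg h.not_gt]; ring

/-- The vacuum. -/
def vac (Q : ℕ) : Fock Q := EuclideanSpace.single ∅ 1

theorem ann_vac (i : Fin (Q + 1)) : ann i (vac Q) = 0 := by
  ext S
  simp only [ann_apply, vac, PiLp.single_apply, PiLp.zero_apply]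
  simp [insert_ne_empty]

theorem inner_vac : inner ℂ (vac Q) (vac Q) = (1 : ℂ) := by simp [vac]

/-- The model. -/
def car (Q : ℕ) : CAR Q (Fock Q) where
  c i := if h : i ≤ Q then ann ⟨i, Nat.lt_succ_of_le h⟩ else 0
  d i := if h : i ≤ Q then cre ⟨i, Nat.lt_succ_of_le h⟩ else 0
  adj i hi x y := by simp only [dif_pos hi]; exact adjoint _ x y
  anti i hi j hj x := by simp only [dif_pos hi, dif_pos hj]; exact ann_ann _ _ x
  mixed i hi j hj x := by
    simp only [dif_pos hi, dif_pos hj]
    rw [ann_cre]
    simp only [Fin.ext_iff]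

theorem car_vac {i : ℕ} (hi : i ≤ Q) : (car Q).c i (vac Q) = 0 := by
  simp only [car, dif_pos hi]
  exact ann_vac _

end Fock

end P359
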